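import Vale.Agent.P241GR.B

/-!
# P241G, block B: rows B1 and B2 (the localization of a compact object)
-/

open CategoryTheory Limits Pretriangulated Preadditive

universe v u

namespace Vale.Agent.P241GB

open P241GR P093.PLoc
open P251.S (IsCpt Tel tel trT CLim1 coTower ProZero)

section

variable {C : Type u} [Category.{v} C] [Preadditive C]

theorem pl_iff {p : ℕ} {X : C} : PL p X ↔ IsPLocal p X := by
  unfold PL IsPLocal
  simp only [natCast_zsmul]

/-- the coproduct of local objects, as a cofan of the full subcategory -/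
noncomputable def cof [HasCoproducts.{0} C] {p : ℕ} {I : Type}
    (B : I → (PL (C := C) p).FullSubcategory) : Cofan B :=
  Cofan.mk ⟨∐ fun i => (B i).obj, pl_iff.2 (IsPLocal.coprod fun i => pl_iff.1 (B i).property)⟩
    fun i => ObjectProperty.homMk (Sigma.ι (fun i => (B i).obj) i)

/-- it is a coproduct -/
noncomputable def cofC [HasCoproducts.{0} C] {p : ℕ} {I : Type}
    (B : I → (PL (C := C) p).FullSubcategory) : IsColimit (cof B) :=
  Cofan.IsColimit.mk _ (fun s => ObjectProperty.homMk (Sigma.desc fun i => (s.inj i).hom))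
    (fun s i => ObjectProperty.hom_ext _ (Sigma.ι_desc (fun i => (s.inj i).hom) i))
    (fun s _ h => ObjectProperty.hom_ext _ (Limits.Sigma.hom_ext _ _ fun i =>
      (congrArg (fun x => x.hom) (h i)).trans (Sigma.ι_desc (fun i => (s.inj i).hom) i).symm))

theorem b1 : B1 C := fun _ _ => hasCoproducts_of_colimit_cofans (fun B => cof B) fun B => cofC B

/-- compactness with respect to coproducts of local objects -/
def LC [HasCoproducts.{0} C] (p : ℕ) (X : C) : Prop :=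
  ∀ ⦃I : Type⦄ (B : I → C), (∀ i, IsPLocal p (B i)) → ∀ f : X ⟶ ∐ B,
    ∃ (s : Finset I) (g : ∀ i, X ⟶ B i), f = ∑ i ∈ s, g i ≫ Sigma.ι B i

theorem cp_iff [HasCoproducts.{0} C] {p : ℕ} (A : (PL (C := C) p).FullSubcategory) :
    Cp A ↔ LC p A.obj := by
  constructor
  · intro h I B hB f
    let B' : I → (PL (C := C) p).FullSubcategory := fun i => ⟨B i, pl_iff.2 (hB i)⟩
    obtain ⟨s, g, hg⟩ := h I B' (cof B') (cofC B') (ObjectProperty.homMk f)
    refine ⟨s, fun i => (g i).hom, ?_⟩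
    have h1 := congrArg (PL (C := C) p).ι.map hg
    rw [Functor.map_sum] at h1
    exact h1
  · intro h I B c hc f
    let e := hc.coconePointUniqueUpToIso (cofC B)
    obtain ⟨s, g, hg⟩ := h (fun i => (B i).obj) (fun i => pl_iff.1 (B i).property)
      (f ≫ e.hom).hom
    refine ⟨s, fun i => ObjectProperty.homMk (g i), ?_⟩
    rw [← cancel_mono e.hom, sum_comp]
    have h2 : ∀ i, c.inj i ≫ e.hom = (cof B).inj i := fun i =>
      hc.comp_coconePointUniqueUpToIso_hom (cofC B) ⟨i⟩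
    simp only [Category.assoc, h2]
    apply (PL (C := C) p).ι.map_injective
    rw [Functor.map_sum]
    exact hg

end

variable {C : Type u} [Category.{v} C] [Preadditive C] [HasZeroObject C] [HasShift C ℤ]
  [∀ n : ℤ, (shiftFunctor C n).Additive] [Pretriangulated C] [HasCoproducts.{0} C]

omit [HasCoproducts.{0} C] in
theorem sq_zero {X M : C} {i : X ⟶ M} {δ : M ⟶ X⟦(1 : ℤ)⟧} {m : ℤ}
    (hM : Triangle.mk (m • 𝟙 X) i δ ∈ distTriang C) : (m * m) • 𝟙 M = 0 := by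
  have h1 : (m • 𝟙 X) ≫ i = 0 := comp_distTriang_mor_zero₁₂ _ hM
  rw [zsmul_id_comp] at h1
  have h2 : i ≫ (m • 𝟙 M) = 0 := by rw [comp_zsmul_id, h1]
  obtain ⟨b, hb⟩ : ∃ b : X⟦(1 : ℤ)⟧ ⟶ M, m • 𝟙 M = δ ≫ b :=
    Triangle.yoneda_exact₃ _ hM (m • 𝟙 M) h2
  have h3 : δ ≫ (m • 𝟙 X)⟦(1 : ℤ)⟧' = 0 := comp_distTriang_mor_zero₃₁ _ hM
  rw [Functor.map_zsmul, CategoryTheory.Functor.map_id, comp_zsmul_id] at h3
  rw [mul_smul, hb, ← zsmul_comp, h3, zero_comp]

/-- the telescope of the multiplications by the integers prime to `p` -/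
noncomputable def tl (p : ℕ) (B : C) : Tel (X := fun _ => B) (fun n => (qs p n : ℤ) • 𝟙 B) :=
  tel _

/-- the localization -/
noncomputable def L (p : ℕ) (B : C) : C := (tl p B).obj

/-- the maps to the telescope -/
noncomputable def en (p : ℕ) (B : C) (n : ℕ) : B ⟶ L p B := (tl p B).ι n

variable {p : ℕ}

theorem qp_en (B : C) (n k : ℕ) : (qp p n k : ℤ) • en p B (n + k) = en p B n := by
  rw [← zsmul_id_comp, ← trT_qs]
  exact (tl p B).trT_ι n k

theorem qp_en0 (B : C) (n : ℕ) : (qp p 0 n : ℤ) • en p B n = en p B 0 := by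
  have h1 := qp_en (p := p) B 0 n
  rwa [zero_add] at h1

theorem sIso_en (B : C) {W : C} (hW : IsCpt W) : SIso p W (en p B 0) := by
  constructor
  · intro y
    obtain ⟨n, g, hg⟩ := (tl p B).exists_factor hW y
    refine ⟨qp p 0 n, g, qp_coprime _ _ _, ?_⟩
    have hg' : g ≫ en p B n = y := hg
    rw [← qp_en0 B n, comp_zsmul, hg', natCast_zsmul]
  · intro x hx
    obtain ⟨k, hk⟩ := (tl p B).exists_eq_zero hW x hx
    rw [trT_qs, comp_zsmul_id, natCast_zsmul] at hk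
    exact ⟨_, qp_coprime _ _ _, hk⟩

theorem L_zero {m : ℕ} (hm : m.Coprime p) (hm0 : m ≠ 0) (B : C) {M : C}
    (h : ((m : ℤ) * m) • 𝟙 M = 0) (f : L p B ⟶ M) : f = 0 := by
  have hz : ∀ {Z : C}, ((m : ℤ) * m) • 𝟙 Z = 0 → ∀ n, ∃ k, ∀ x : B ⟶ Z,
      (qp p n k : ℤ) • x = 0 := by
    intro Z hZ n
    obtain ⟨k, c, hc⟩ := exists_sq_dvd_qp hm hm0 n
    refine ⟨k, fun x => ?_⟩
    rw [hc, mul_comm, Nat.cast_mul, mul_smul, Nat.cast_mul, ← comp_zsmul_id ((m : ℤ) * m), hZ,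
      comp_zero, smul_zero]
  have h1 : ((m : ℤ) * m) • 𝟙 (M⟦(-1 : ℤ)⟧) = 0 := by
    rw [← (shiftFunctor C (-1 : ℤ)).map_id, ← Functor.map_zsmul, h, Functor.map_zero]
  have hp : ProZero (A := fun _ => (B ⟶ M⟦(-1 : ℤ)⟧))
      (coTower (X := fun _ => B) (fun n => (qs p n : ℤ) • 𝟙 B) _) := by
    intro n
    obtain ⟨k, hk⟩ := hz h1 n
    refine ⟨n + k, Nat.le_add_right _ _, ?_⟩
    ext x
    rw [P251.S.tr_coTower, trT_qs, zsmul_id_comp, hk]
    rfl
  refine (tl p B).eq_zero hp.lim1 f fun n => ?_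
  obtain ⟨k, hk⟩ := hz h n
  change en p B n ≫ f = 0
  rw [← qp_en B n k, zsmul_comp, hk]

theorem L_loc (hp : p ≠ 1) (B : C) : IsPLocal p (L p B) := by
  intro m hm
  have hm0 : m ≠ 0 := by
    rintro rfl
    rw [Nat.coprime_zero_left] at hm
    exact hp hm
  obtain ⟨M, i, δ, hM⟩ := P251.H.exists_cone ((m : ℤ) • 𝟙 (L p B))
  obtain ⟨w, hw⟩ := hM.lift₂ (𝟙 _) (by rw [L_zero hm hm0 B (sq_zero hM) i, comp_zero])
  refine ⟨w, ?_, hw⟩
  rw [comp_zsmul_id] at hw
  rw [zsmul_id_comp, hw]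

theorem L_ext {B Y : C} (hY : IsPLocal p Y) {f g : L p B ⟶ Y}
    (h : en p B 0 ≫ f = en p B 0 ≫ g) : f = g := by
  have hlim : CLim1 (X := fun _ => B) (fun n => (qs p n : ℤ) • 𝟙 B) (Y⟦(-1 : ℤ)⟧) := by
    refine P251.S.lim1_of_surjective (A := fun _ => (B ⟶ Y⟦(-1 : ℤ)⟧)) ?_
    intro n y
    obtain ⟨z, hz⟩ := (hY.shift (-1)).exists_div (q := (qs p n : ℤ)) (qs_coprime p n) y
    exact ⟨z, by rw [P251.S.coTower_apply, zsmul_id_comp, hz]⟩
  refine (tl p B).hom_ext hlim f g fun n => ?_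
  change en p B n ≫ f = en p B n ≫ g
  rw [← sub_eq_zero, ← comp_sub]
  refine hY.eq_zero (q := (qp p 0 n : ℤ)) (qp_coprime _ _ _) ?_
  rw [← zsmul_comp, qp_en0, comp_sub, sub_eq_zero]
  exact h

theorem L_desc {B Y : C} (hY : IsPLocal p Y) (f : B ⟶ Y) :
    ∃ g : L p B ⟶ Y, en p B 0 ≫ g = f := by
  have h : ∀ n : ℕ, ∃ x : B ⟶ Y, (qp p 0 n : ℤ) • x = f := fun n =>
    hY.exists_div (q := (qp p 0 n : ℤ)) (qp_coprime _ _ _) f
  choose x hx using h
  obtain ⟨l, hl⟩ := (tl p B).exists_desc x (by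
    intro n
    change ((qs p n : ℤ) • 𝟙 B) ≫ x (n + 1) = x n
    rw [zsmul_id_comp, ← sub_eq_zero]
    refine hY.eq_zero (q := (qp p 0 n : ℤ)) (qp_coprime _ _ _) ?_
    rw [smul_sub, hx, smul_smul]
    have h2 := hx (n + 1)
    rw [qp_succ, zero_add] at h2
    push_cast at h2
    rw [h2, sub_self])
  refine ⟨l, (hl 0).trans ?_⟩
  have h4 := hx 0
  rwa [qp_zero, Nat.cast_one, one_smul] at h4

theorem L_lc {B : C} (hB : IsCpt B) : LC p (L p B) := by
  intro I X hX f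
  obtain ⟨s, g, hg⟩ := hB X (en p B 0 ≫ f)
  choose g' hg' using fun i => L_desc (hX i) (g i)
  refine ⟨s, g', L_ext (IsPLocal.coprod hX) ?_⟩
  rw [hg, comp_sum]
  exact Finset.sum_congr rfl fun i _ => by rw [← Category.assoc, hg']

theorem b2 [IsTriangulated C] : B2 C := fun _ hp B hB =>
  ⟨⟨L _ B, pl_iff.2 (L_loc hp.ne_one B)⟩, en _ B 0, (cp_iff _).2 (L_lc hB),
    fun _ hW => sIso_en B hW⟩

end Vale.Agent.P241GB
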