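import Vale.Agent.P241GB.Loc

/-!
# P241G, block B: row B3 (compact local objects are retracts of localizations, after Neeman)
-/

open CategoryTheory Limits Pretriangulated Preadditive

set_option linter.unusedSectionVars false

universe v u

namespace Vale.Agent.P241GB

open P241GR P093.PLoc
open P251.S (IsCpt sproj)
open P251.H (Dist)

variable {C : Type u} [Category.{v} C] [Preadditive C] [HasZeroObject C] [HasShift C ℤ]
  [∀ n : ℤ, (shiftFunctor C n).Additive] [Pretriangulated C] [HasCoproducts.{0} C] {p : ℕ}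

/-! ### Locally compact objects -/

theorem LC.of_iso {W W' : C} (hW : LC p W) (e : W ≅ W') : LC p W' := by
  intro I X hX f
  obtain ⟨s, g, hg⟩ := hW X hX (e.hom ≫ f)
  refine ⟨s, fun i => e.inv ≫ g i, ?_⟩
  rw [← cancel_epi e.hom, hg, comp_sum]
  exact Finset.sum_congr rfl fun i _ => by simp

theorem LC.shift {W : C} (hW : LC p W) (k : ℤ) : LC p (W⟦k⟧) := by
  intro I X hX f
  let e : (W⟦k⟧)⟦-k⟧ ≅ W := (shiftFunctorCompIsoId C k (-k) (by simp)).app W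
  let e' := PreservesCoproduct.iso (shiftFunctor C (-k)) X
  obtain ⟨s, g, hg⟩ := hW (fun i => (X i)⟦-k⟧) (fun i => (hX i).shift _)
    ((e.inv ≫ f⟦-k⟧') ≫ e'.hom)
  have h1 : ∀ i, (Sigma.ι X i)⟦-k⟧' ≫ e'.hom = Sigma.ι (fun i => (X i)⟦-k⟧) i := fun i => by
    rw [← cancel_mono e'.inv, Category.assoc, e'.hom_inv_id, Category.comp_id]
    simp [e']
  refine ⟨s, fun i => (shiftFunctor C (-k)).preimage (e.hom ≫ g i), ?_⟩
  apply (shiftFunctor C (-k)).map_injective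
  rw [Functor.map_sum]
  simp only [Functor.map_comp, Functor.map_preimage]
  rw [← cancel_epi e.inv, ← cancel_mono e'.hom, hg, comp_sum, sum_comp]
  exact Finset.sum_congr rfl fun i _ => by simp [h1]

omit [HasZeroObject C] [HasShift C ℤ] [∀ n : ℤ, (shiftFunctor C n).Additive]
  [Pretriangulated C] in
theorem sum_add {W : C} {I : Type} (X : I → C) (s t : Finset I) (g g' : ∀ i, W ⟶ X i) :
    ∃ (r : Finset I) (k : ∀ i, W ⟶ X i), ∑ i ∈ s, g i ≫ Sigma.ι X i +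
      ∑ i ∈ t, g' i ≫ Sigma.ι X i = ∑ i ∈ r, k i ≫ Sigma.ι X i := by
  classical
  refine ⟨s ∪ t, fun i => (if i ∈ s then g i else 0) + (if i ∈ t then g' i else 0), ?_⟩
  simp only [add_comp, Finset.sum_add_distrib]
  congr 1
  · rw [← Finset.sum_subset Finset.subset_union_left]
    · exact Finset.sum_congr rfl fun i hi => by rw [if_pos hi]
    · intro i _ hi
      rw [if_neg hi, zero_comp]
  · rw [← Finset.sum_subset Finset.subset_union_right]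
    · exact Finset.sum_congr rfl fun i hi => by rw [if_pos hi]
    · intro i _ hi
      rw [if_neg hi, zero_comp]

theorem LC.cone {X Y Z : C} {a : X ⟶ Y} {b : Y ⟶ Z} {c : Z ⟶ X⟦(1 : ℤ)⟧} (D : Dist a b c)
    (h1 : LC p X) (h2 : LC p Y) : LC p Z := by
  classical
  intro I B hB f
  obtain ⟨s, g, hg⟩ := h2 B hB (b ≫ f)
  let q : ∐ B ⟶ ∐ B := 𝟙 _ - ∑ i ∈ s, sproj B i ≫ Sigma.ι B i
  have hq : ∀ i ∈ s, Sigma.ι B i ≫ q = 0 := by
    intro i hi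
    simp only [q]
    rw [comp_sub, Category.comp_id, comp_sum, Finset.sum_eq_single_of_mem i hi]
    · rw [← Category.assoc, P251.S.ι_sproj_self, Category.id_comp, sub_self]
    · intro j _ hj
      rw [← Category.assoc, P251.S.ι_sproj_ne B hj.symm, zero_comp]
  have h4 : b ≫ f ≫ q = 0 := by
    rw [← Category.assoc, hg, sum_comp]
    refine Finset.sum_eq_zero fun i hi => ?_
    rw [Category.assoc, hq i hi, comp_zero]
  obtain ⟨h, hh⟩ := D.desc₃ (f ≫ q) h4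
  obtain ⟨t, g', hg'⟩ := h1.shift 1 B hB h
  obtain ⟨r, k, hk⟩ := sum_add B s t (fun i => f ≫ sproj B i) fun i => c ≫ g' i
  refine ⟨r, k, Eq.trans ?_ hk⟩
  have h6 : f ≫ q = ∑ i ∈ t, (c ≫ g' i) ≫ Sigma.ι B i := by
    rw [← hh, hg', comp_sum]
    exact Finset.sum_congr rfl fun i _ => by simp
  rw [← h6]
  simp only [q]
  rw [comp_sub, Category.comp_id, comp_sum]
  simp only [Category.assoc]
  abel

theorem LC.fibre {X Y Z : C} {a : X ⟶ Y} {b : Y ⟶ Z} {c : Z ⟶ X⟦(1 : ℤ)⟧} (D : Dist a b c)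
    (h2 : LC p Y) (h3 : LC p Z) : LC p X :=
  ((LC.cone D.rot h2 h3).shift (-1)).of_iso
    ((shiftFunctorCompIsoId C (1 : ℤ) (-1) (by simp)).app X)

/-! ### Isomorphisms after localization -/

/-- isomorphism after localization on all compact objects -/
def AI (p : ℕ) {X Y : C} (l : X ⟶ Y) : Prop := ∀ W, IsCpt W → SIso p W l

theorem AI.comp_iso {X Y Y' : C} {l : X ⟶ Y} (h : AI p l) (e : Y ≅ Y') : AI p (l ≫ e.hom) := by
  intro W hW
  obtain ⟨h1, h2⟩ := h W hW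
  refine ⟨fun y => ?_, fun x hx => h2 x ?_⟩
  · obtain ⟨m, x, hm, hx⟩ := h1 (y ≫ e.inv)
    refine ⟨m, x, hm, ?_⟩
    rw [← Category.assoc, hx, nsmul_comp, Category.assoc, e.inv_hom_id, Category.comp_id]
  · rw [← cancel_mono e.hom, Category.assoc, hx, zero_comp]

theorem AI.shift {X Y : C} {l : X ⟶ Y} (h : AI p l) (n : ℤ) : AI p (l⟦n⟧') := by
  intro W hW
  obtain ⟨h1, h2⟩ := h _ (hW.shift (-n))
  let e : (W⟦-n⟧)⟦n⟧ ≅ W := (shiftFunctorCompIsoId C (-n) n (by simp)).app W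
  refine ⟨fun y => ?_, fun x hx => ?_⟩
  · obtain ⟨y', hy'⟩ := (shiftFunctor C n).map_surjective (e.hom ≫ y)
    obtain ⟨m, x, hm, hx⟩ := h1 y'
    refine ⟨m, e.inv ≫ x⟦n⟧', hm, ?_⟩
    rw [Category.assoc, ← Functor.map_comp, hx, Functor.map_nsmul, hy', comp_nsmul,
      e.inv_hom_id_assoc]
  · obtain ⟨x', hx'⟩ := (shiftFunctor C n).map_surjective (e.hom ≫ x)
    obtain ⟨m, hm, hz⟩ := h2 x' ((shiftFunctor C n).map_injective (by
      rw [Functor.map_comp, hx', Category.assoc, hx, comp_zero, Functor.map_zero]))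
    refine ⟨m, hm, ?_⟩
    rw [← cancel_epi e.hom, comp_nsmul, ← hx', ← Functor.map_nsmul, hz, Functor.map_zero,
      comp_zero]

theorem AI.cone {X Y Z X' Y' Z' : C} {f : X ⟶ Y} {g : Y ⟶ Z} {h : Z ⟶ X⟦(1 : ℤ)⟧}
    {f' : X' ⟶ Y'} {g' : Y' ⟶ Z'} {h' : Z' ⟶ X'⟦(1 : ℤ)⟧} (D : Dist f g h) (D' : Dist f' g' h')
    {a : X ⟶ X'} {b : Y ⟶ Y'} {c : Z ⟶ Z'} (c1 : f ≫ b = a ≫ f') (c2 : g ≫ c = b ≫ g')
    (c3 : h ≫ a⟦(1 : ℤ)⟧' = c ≫ h') (ha : AI p a) (hb : AI p b) : AI p c := by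
  intro W hW
  refine ⟨fun y => ?_, fun x hx => ?_⟩
  · obtain ⟨m1, x1, hm1, e1⟩ := (ha.shift 1 W hW).1 (y ≫ h')
    obtain ⟨m2, hm2, e2⟩ := (hb.shift 1 W hW).2 (x1 ≫ f⟦(1 : ℤ)⟧') (by
      rw [Category.assoc, ← Functor.map_comp, c1, Functor.map_comp, ← Category.assoc, e1,
        nsmul_comp, Category.assoc, D'.zero₃₁, comp_zero, smul_zero])
    obtain ⟨x3, e3⟩ := D.lift₁ (m2 • x1) (by rw [nsmul_comp, e2])
    obtain ⟨y2, e4⟩ := D'.lift₃ (x3 ≫ c - (m2 * m1) • y) (by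
      rw [sub_comp, Category.assoc, ← c3, ← Category.assoc, e3, nsmul_comp, e1, nsmul_comp,
        mul_smul, sub_self])
    obtain ⟨m3, x2, hm3, e5⟩ := (hb W hW).1 y2
    refine ⟨m3 * (m2 * m1), m3 • x3 - x2 ≫ g, hm3.mul_left (hm2.mul_left hm1), ?_⟩
    rw [sub_comp, Category.assoc, c2, ← Category.assoc, e5, nsmul_comp, nsmul_comp, e4, smul_sub,
      sub_sub_cancel, mul_smul m3]
  · obtain ⟨m1, hm1, e1⟩ := (ha.shift 1 W hW).2 (x ≫ h) (by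
      rw [Category.assoc, c3, ← Category.assoc, hx, zero_comp])
    obtain ⟨x2, e2⟩ := D.lift₃ (m1 • x) (by rw [nsmul_comp, e1])
    obtain ⟨y1, e3⟩ := D'.lift₂ (x2 ≫ b) (by
      rw [Category.assoc, ← c2, ← Category.assoc, e2, nsmul_comp, hx, smul_zero])
    obtain ⟨m2, x1, hm2, e4⟩ := (ha W hW).1 y1
    obtain ⟨m3, hm3, e5⟩ := (hb W hW).2 (x1 ≫ f - m2 • x2) (by
      rw [sub_comp, Category.assoc, c1, ← Category.assoc, e4, nsmul_comp, nsmul_comp, e3,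
        sub_self])
    refine ⟨m3 * (m2 * m1), hm3.mul_left (hm2.mul_left hm1), ?_⟩
    have e6 := congrArg (· ≫ g) e5
    simp only [nsmul_comp, sub_comp, Category.assoc, D.zero₁₂, comp_zero, zero_sub, e2,
      zero_comp, smul_neg, neg_eq_zero] at e6
    rw [mul_smul, mul_smul, e6]

/-! ### Localizations of objects of `F` -/

/-- localizations of objects of `F` -/
def Lo (p : ℕ) (F : C → Prop) (U : C) : Prop :=
  IsPLocal p U ∧ LC p U ∧ ∃ (B : C) (l : B ⟶ U), F B ∧ AI p l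

variable [IsTriangulated C] {ι : Type} {S : ι → C} {F : C → Prop}

omit [IsTriangulated C] in
theorem Lo.of_iso {U V : C} (h : Lo p F U) (e : U ≅ V) : Lo p F V := by
  obtain ⟨h1, h2, B, l, hB, hl⟩ := h
  exact ⟨h1.of_iso e, h2.of_iso e, B, _, hB, hl.comp_iso e⟩

theorem Lo.shift (G : Gen S F) {U : C} (h : Lo p F U) (n : ℤ) : Lo p F (U⟦n⟧) := by
  obtain ⟨h1, h2, B, l, hB, hl⟩ := h
  exact ⟨h1.shift n, h2.shift n, _, _, G.shift n hB, hl.shift n⟩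

theorem Lo.cone (G : Gen S F) {X Y Z : C} {f : X ⟶ Y} {g : Y ⟶ Z} {h : Z ⟶ X⟦(1 : ℤ)⟧}
    (D : Dist f g h) (hX : Lo p F X) (hY : Lo p F Y) : Lo p F Z := by
  obtain ⟨h1, h2, B, l, hB, hl⟩ := hX
  obtain ⟨h1', h2', B', l', hB', hl'⟩ := hY
  refine ⟨IsPLocal.ext₃ D h1 h1', LC.cone D h2 h2', ?_⟩
  obtain ⟨m, u, hm, hu⟩ := (hl' B (G.cpt hB)).1 (l ≫ f)
  obtain ⟨K, i, δ, E⟩ := P251.H.exists_cone u
  have hi : IsIso (m • 𝟙 X) := pl_iff.2 h1 m hm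
  have c1 : u ≫ l' = (l ≫ (asIso (m • 𝟙 X)).hom) ≫ f := by
    rw [hu, asIso_hom, comp_nsmul, Category.comp_id, nsmul_comp]
  obtain ⟨c, c2, c3⟩ := E.map₃ D _ _ c1
  exact ⟨K, c, G.cone E hB hB', AI.cone E D c1 c2 c3 (hl.comp_iso _) hl'⟩

theorem Lo.mid (G : Gen S F) {X Y Z : C} {f : X ⟶ Y} {g : Y ⟶ Z} {h : Z ⟶ X⟦(1 : ℤ)⟧}
    (D : Dist f g h) (hX : Lo p F X) (hZ : Lo p F Z) : Lo p F Y :=
  ((Lo.cone G D.rot.rot hZ (hX.shift G 1)).shift G (-1)).of_iso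
    ((shiftFunctorCompIsoId C (1 : ℤ) (-1) (by simp)).app Y)

theorem lo_zero (G : Gen S F) : ∃ U, Lo p F U := by
  obtain ⟨Z, hF, hZ⟩ := G.zero
  refine ⟨Z, isPLocal_of_isZero hZ, fun I B _ f => G.cpt hF B f, Z, 𝟙 _, hF, fun W _ =>
    ⟨fun y => ⟨1, y, Nat.coprime_one_left p, ?_⟩, fun x _ =>
      ⟨1, Nat.coprime_one_left p, hZ.eq_of_tgt _ _⟩⟩⟩
  exact hZ.eq_of_tgt _ _

/-- `f` factors through a localization of an object of `F` -/
def Fa (p : ℕ) (F : C → Prop) {X Z : C} (f : X ⟶ Z) : Prop :=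
  ∃ (U : C) (a : X ⟶ U) (b : U ⟶ Z), Lo p F U ∧ a ≫ b = f

theorem Fa.add (G : Gen S F) {X Z : C} {f g : X ⟶ Z} (hf : Fa p F f) (hg : Fa p F g) :
    Fa p F (f + g) := by
  obtain ⟨U, a, b, hU, rfl⟩ := hf
  obtain ⟨V, a', b', hV, rfl⟩ := hg
  have D : Dist (biprod.inl : U ⟶ U ⊞ V) (biprod.snd : U ⊞ V ⟶ V) 0 :=
    binaryBiproductTriangle_distinguished U V
  exact ⟨U ⊞ V, biprod.lift a a', biprod.desc b b', Lo.mid G D hU hV, biprod.lift_desc⟩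

theorem loc_fa (G : Gen S F) : P251.H.Localizing
    (fun Z : C => IsPLocal p Z ∧ ∀ X, LC p X → ∀ f : X ⟶ Z, Fa p F f) where
  iso e h := ⟨h.1.of_iso e, fun X hX f => by
    obtain ⟨U, a, b, hU, hf⟩ := h.2 X hX (f ≫ e.inv)
    exact ⟨U, a, b ≫ e.hom, hU, by rw [← Category.assoc, hf]; simp⟩⟩
  shift {Z} n h := ⟨h.1.shift n, fun X hX f => by
    let e : (X⟦-n⟧)⟦n⟧ ≅ X := (shiftFunctorCompIsoId C (-n) n (by simp)).app X
    obtain ⟨f', hf'⟩ := (shiftFunctor C n).map_surjective (e.hom ≫ f)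
    obtain ⟨U, a, b, hU, hf⟩ := h.2 _ (hX.shift (-n)) f'
    exact ⟨U⟦n⟧, e.inv ≫ a⟦n⟧', b⟦n⟧', hU.shift G n, by
      rw [Category.assoc, ← Functor.map_comp, hf, hf', e.inv_hom_id_assoc]⟩⟩
  cone {Z1 Z2 Z3} f g h D h1 h2 := ⟨IsPLocal.ext₃ D h1.1 h2.1, fun X hX φ => by
    let e : (X⟦(-1 : ℤ)⟧)⟦(1 : ℤ)⟧ ≅ X := (shiftFunctorCompIsoId C (-1) 1 (by simp)).app X
    obtain ⟨f', hf'⟩ := (shiftFunctor C (1 : ℤ)).map_surjective (e.hom ≫ φ ≫ h)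
    obtain ⟨U0, a0, b0, hU0, hf0⟩ := h1.2 _ (hX.shift (-1)) f'
    have hU := hU0.shift G 1
    obtain ⟨X', c, d, E⟩ := P251.H.exists_fibre (e.inv ≫ a0⟦(1 : ℤ)⟧')
    have hab : (e.inv ≫ a0⟦(1 : ℤ)⟧') ≫ b0⟦(1 : ℤ)⟧' = φ ≫ h := by
      rw [Category.assoc, ← Functor.map_comp, hf0, hf', e.inv_hom_id_assoc]
    obtain ⟨ψ, hψ⟩ := D.lift₃ (c ≫ φ) (by
      rw [Category.assoc, ← hab, ← Category.assoc, E.zero₁₂, zero_comp])
    obtain ⟨U2, a2, b2, hU2, hf2⟩ := h2.2 X' (LC.fibre E hX hU.2.1) ψ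
    obtain ⟨V, j, k, E'⟩ := P251.H.exists_mid (d ≫ a2⟦(1 : ℤ)⟧')
    obtain ⟨t, t1, _⟩ := E.map₂ E' a2 (𝟙 _) (Category.id_comp _).symm
    obtain ⟨v', hv'⟩ := E'.desc₁ ((b2 ≫ g)⟦(1 : ℤ)⟧') (by
      rw [Category.assoc, ← Functor.map_comp, ← Category.assoc a2, hf2, hψ, Functor.map_comp,
        ← Category.assoc, E.zero₃₁, zero_comp])
    obtain ⟨v, rfl⟩ := (shiftFunctor C (1 : ℤ)).map_surjective v'
    have hv : j ≫ v = b2 ≫ g := (shiftFunctor C (1 : ℤ)).map_injective (by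
      rw [Functor.map_comp, hv'])
    obtain ⟨w, hw⟩ := E.desc₂ (φ - t ≫ v) (by
      rw [comp_sub, ← Category.assoc, t1, Category.assoc, hv, ← Category.assoc, hf2, hψ, sub_self])
    have h3 : φ = t ≫ v + (e.inv ≫ a0⟦(1 : ℤ)⟧') ≫ w := by rw [hw, add_sub_cancel]
    rw [h3]
    exact Fa.add G ⟨V, t, v, Lo.mid G E' hU2 hU, rfl⟩ ⟨_, _, w, hU, rfl⟩⟩
  coprod {I} Z h := ⟨IsPLocal.coprod fun i => (h i).1, fun X hX f => by
    classical
    obtain ⟨s, g, rfl⟩ := hX Z (fun i => (h i).1) f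
    induction s using Finset.induction_on with
    | empty =>
      obtain ⟨U, hU⟩ := lo_zero (p := p) G
      exact ⟨U, 0, 0, hU, by rw [Finset.sum_empty, zero_comp]⟩
    | insert i s hi ih =>
      rw [Finset.sum_insert hi]
      obtain ⟨U, a, b, hU, hf⟩ := (h i).2 X hX (g i)
      exact Fa.add G ⟨U, a, b ≫ Sigma.ι Z i, hU, by rw [← Category.assoc, hf]⟩ ih⟩

omit [HasZeroObject C] [HasShift C ℤ] [∀ n : ℤ, (shiftFunctor C n).Additive]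
  [Pretriangulated C] [IsTriangulated C] in
theorem perf {X : C} {B : ℕ → C} {f : X ⟶ ∐ B}
    (h : ∃ (s : Finset ℕ) (g : ∀ i, X ⟶ B i), f = ∑ i ∈ s, g i ≫ Sigma.ι B i) :
    ∃ (u : ∀ k, X ⟶ B k) (r : X ⟶ ∐ fun _ : ℕ => X), r ≫ Limits.Sigma.map u = f := by
  obtain ⟨s, g, rfl⟩ := h
  refine ⟨g, ∑ i ∈ s, Sigma.ι (fun _ : ℕ => X) i, ?_⟩
  rw [sum_comp]
  exact Finset.sum_congr rfl fun i _ => Sigma.ι_map _ _

theorem b3 : B3 C := by
  intro p hp ι S F G A hA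
  have hls : LocallySmall.{0} C := P251.H.locallySmall_of_generator G.small
    (fun i B _ f => ⟨fun _ => i, perf (G.cpt (G.mem i) B f)⟩) G.sh G.gen
  have hlo : ∀ j : ι × ℤ, Lo p F ((L p (S j.1))⟦j.2⟧) := fun j =>
    Lo.shift G ⟨L_loc hp.ne_one _, L_lc (G.cpt (G.mem _)), _, en p _ 0, G.mem _,
      fun _ hW => sIso_en _ hW⟩ _
  have hloc : P251.H.Localizing (IsPLocal (T := C) p) :=
    ⟨fun e h => h.of_iso e, fun n h => h.shift n, fun D h1 h2 => IsPLocal.ext₃ D h1 h2,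
      fun _ h => IsPLocal.coprod h⟩
  have h1 := P251.H.inLoc_of_generator_of_small (S := fun j : ι × ℤ => (L p (S j.1))⟦j.2⟧) hloc
    (fun _ _ => hls.hom_small _ _) (fun j => (hlo j).1)
    (fun j B hB f => ⟨fun _ => j, perf ((hlo j).2.1 B hB f)⟩)
    (fun j n => ⟨(j.1, j.2 + n), ⟨((shiftFunctorAdd C j.2 n).app _).symm⟩⟩)
    (fun Z hZ h => G.gen Z fun i f => by
      obtain ⟨g, rfl⟩ := L_desc hZ f
      let e := (shiftFunctorZero C ℤ).app (L p (S i))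
      rw [← e.inv_hom_id_assoc g, h (i, 0) (e.hom ≫ g), comp_zero, comp_zero])
    (pl_iff.1 A.property) _ (loc_fa (p := p) G)
    (fun j => ⟨(hlo j).1, fun X _ f => ⟨_, f, 𝟙 _, hlo j, Category.comp_id _⟩⟩)
  obtain ⟨U, a, b, ⟨_, _, B, l, hB, hl⟩, hab⟩ := h1.2 _ ((cp_iff A).1 hA) (𝟙 _)
  exact ⟨B, U, l, a, b, hB, hab, hl⟩

end Vale.Agent.P241GB
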